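import Crest.Agent.N250.Cj.Pol

/-!
# Row 250 (helper92): the rotation gauge, an entire two parameter family of rotations
-/

set_option autoImplicit false
open Set Filter Topology
open scoped ComplexConjugate

noncomputable section

namespace Crest.Agent.N250.Ro

open Gc Cj Complex

/-- the coefficients of the rotation -/
def cm (β : Fin 2 → ℂ) : Fin 3 → Fin 3 → ℂ :=
  ![![cos (β 0) * cos (β 1), sin (β 0) * cos (β 1), sin (β 1)], ![-sin (β 0), cos (β 0), 0],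
    ![-(cos (β 0) * sin (β 1)), -(sin (β 0) * sin (β 1)), cos (β 1)]]

/-- the rotated frame -/
def rf (β : Fin 2 → ℂ) (f : Fin 3 → Fin 3 → ℂ) (i c : Fin 3) : ℂ := ∑ k, cm β i k * f k c

/-- rotation minus identity, as a matrix -/
def TT (f : Fin 3 → Fin 3 → ℂ) (β : Fin 2 → ℂ) (c d : Fin 3) : ℂ := ∑ i, (rf β f i c - f i c) * f i d

/-- its linear part -/
def m0 (f : Fin 3 → Fin 3 → ℂ) (β : Fin 2 → ℂ) (c d : Fin 3) : ℂ :=
  β 0 * (f 1 c * f 0 d - f 0 c * f 1 d) + β 1 * (f 2 c * f 0 d - f 0 c * f 2 d)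

/-- the rotation of a vector -/
def MM (f : Fin 3 → Fin 3 → ℂ) (β : Fin 2 → ℂ) (y : Fin 3 → ℂ) (c : Fin 3) : ℂ :=
  y c + ∑ d, TT f β c d * y d

/-- a skew matrix -/
def sk (a₁ a₂ a₃ : ℂ) : Fin 3 → Fin 3 → ℂ := ![![0, a₁, a₂], ![-a₁, 0, a₃], ![-a₂, -a₃, 0]]

variable {f : Fin 3 → Fin 3 → ℂ} {β : Fin 2 → ℂ} {θ : ℝ}

theorem cm_on (β : Fin 2 → ℂ) : On (cm β) := fun i j => by
  have h0 := cos_sq_add_sin_sq (β 0)
  have h1 := cos_sq_add_sin_sq (β 1)
  fin_cases i <;> fin_cases j <;> simp [dot, cm, Fin.sum_univ_three] <;> grind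

theorem dl_cm (β : Fin 2 → ℂ) : dl (cm β) = 1 := by
  have h0 := cos_sq_add_sin_sq (β 0)
  have h1 := cos_sq_add_sin_sq (β 1)
  simp [dl, dot, cr, cm, Fin.sum_univ_three]
  grind

theorem cm_zero (i k : Fin 3) : cm 0 i k = if i = k then 1 else 0 := by
  fin_cases i <;> fin_cases k <;> simp [cm]

@[simp] theorem rf_zero (f : Fin 3 → Fin 3 → ℂ) : rf 0 f = f := by
  funext i c; simp [rf, cm_zero]

@[simp] theorem TT_zero (f : Fin 3 → Fin 3 → ℂ) : TT f 0 = 0 := by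
  funext c d; simp [TT]

theorem dot_rf (h : On f) (i j : Fin 3) : dot (rf β f i) (rf β f j) = dot (cm β i) (cm β j) := by
  have h00 := h 0 0; have h01 := h 0 1; have h02 := h 0 2
  have h11 := h 1 1; have h12 := h 1 2; have h22 := h 2 2
  simp [dot, Fin.sum_univ_three] at h00 h01 h02 h11 h12 h22
  simp only [dot, rf, Fin.sum_univ_three]
  linear_combination (cm β i 0 * cm β j 0) * h00 + (cm β i 0 * cm β j 1 + cm β i 1 * cm β j 0) * h01 +
    (cm β i 0 * cm β j 2 + cm β i 2 * cm β j 0) * h02 + (cm β i 1 * cm β j 1) * h11 +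
    (cm β i 1 * cm β j 2 + cm β i 2 * cm β j 1) * h12 + (cm β i 2 * cm β j 2) * h22

theorem on_rf (h : On f) (β : Fin 2 → ℂ) : On (rf β f) := fun i j => by rw [dot_rf h, cm_on β i j]

theorem dl_rf (f : Fin 3 → Fin 3 → ℂ) (β : Fin 2 → ℂ) : dl (rf β f) = dl f := by
  have h : dl (rf β f) = dl (cm β) * dl f := by
    simp [dl, dot, cr, rf, Fin.sum_univ_three]
    ring
  rw [h, dl_cm, one_mul]

/-- completeness of an orthonormal frame -/
theorem on_comp (h : On f) (c d : Fin 3) : ∑ i, f i c * f i d = if c = d then 1 else 0 := by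
  have h1 : Matrix.of f * (Matrix.of f).transpose = 1 := by
    ext i j
    simpa [Matrix.mul_apply, Matrix.one_apply, dot] using h i j
  have h2 : (Matrix.of f).transpose * Matrix.of f = 1 := mul_eq_one_comm.1 h1
  simpa [Matrix.mul_apply, Matrix.one_apply] using congrFun (congrFun h2 c) d

theorem MM_eq (h : On f) (y : Fin 3 → ℂ) (c : Fin 3) :
    MM f β y c = ∑ i, dot (f i) y * rf β f i c := by
  have h1 : y c = ∑ d, (∑ i, f i c * f i d) * y d := by simp [on_comp h]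
  rw [MM, h1]
  simp only [TT, dot, Fin.sum_univ_three]
  ring

theorem dot_f_frC (h : On f) (a b c : ℂ) :
    dot (f 0) (frC f θ a b c) = a ∧ dot (f 1) (frC f θ a b c) = b * Real.cos θ - c * Real.sin θ ∧
      dot (f 2) (frC f θ a b c) = b * Real.sin θ + c * Real.cos θ := by
  have h00 := h 0 0; have h01 := h 0 1; have h02 := h 0 2
  have h11 := h 1 1; have h12 := h 1 2; have h22 := h 2 2
  simp [dot, Fin.sum_univ_three] at h00 h01 h02 h11 h12 h22
  simp only [dot, frC, Fin.sum_univ_three]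
  refine ⟨?_, ?_, ?_⟩
  · linear_combination a * h00 + (b * Real.cos θ - c * Real.sin θ) * h01 +
      (b * Real.sin θ + c * Real.cos θ) * h02
  · linear_combination a * h01 + (b * Real.cos θ - c * Real.sin θ) * h11 +
      (b * Real.sin θ + c * Real.cos θ) * h12
  · linear_combination a * h02 + (b * Real.cos θ - c * Real.sin θ) * h12 +
      (b * Real.sin θ + c * Real.cos θ) * h22

/-- the gauge rotates the frame -/
theorem MM_frC (h : On f) (a b c : ℂ) : MM f β (frC f θ a b c) = frC (rf β f) θ a b c := by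
  funext e
  obtain ⟨h0, h1, h2⟩ := dot_f_frC (θ := θ) h a b c
  rw [MM_eq h, Fin.sum_univ_three, h0, h1, h2, frC]

theorem TT_frC (h : On f) (a b c : ℂ) (e : Fin 3) :
    frC f θ a b c e + ∑ d, TT f β e d * frC f θ a b c d = frC (rf β f) θ a b c e :=
  congrFun (MM_frC h a b c) e

theorem MM_pC (h : On f) (r : ℝ × ℝ → ℂ) (q : ℝ × ℝ) : MM f β (pC f r q) = pC (rf β f) r q :=
  MM_frC h _ _ _

theorem dot_sum (h : On f) (u v : Fin 3 → ℂ) :
    dot (fun c => ∑ i, u i * f i c) (fun c => ∑ i, v i * f i c) = dot u v := by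
  have h00 := h 0 0; have h01 := h 0 1; have h02 := h 0 2
  have h11 := h 1 1; have h12 := h 1 2; have h22 := h 2 2
  simp [dot, Fin.sum_univ_three] at h00 h01 h02 h11 h12 h22
  simp only [dot, Fin.sum_univ_three]
  linear_combination (u 0 * v 0) * h00 + (u 0 * v 1 + u 1 * v 0) * h01 +
    (u 0 * v 2 + u 2 * v 0) * h02 + (u 1 * v 1) * h11 + (u 1 * v 2 + u 2 * v 1) * h12 +
    (u 2 * v 2) * h22

/-- the gauge is orthogonal -/
theorem dot_MM (h : On f) (y z : Fin 3 → ℂ) : dot (MM f β y) (MM f β z) = dot y z := by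
  have e : ∀ y : Fin 3 → ℂ, (fun c => ∑ i, dot (f i) y * f i c) = y := fun y => by
    have := funext (MM_eq (β := 0) h y)
    rw [rf_zero] at this
    rw [← this]; funext c; simp [MM]
  rw [funext (MM_eq h y), funext (MM_eq h z), dot_sum (on_rf h β), ← dot_sum h, e, e]

theorem m0_skew (f : Fin 3 → Fin 3 → ℂ) (β : Fin 2 → ℂ) (c d : Fin 3) : m0 f β c d = -m0 f β d c := by
  simp only [m0]; ring

/-- the infinitesimal rotation in the polar frame -/
theorem m0_frC (h : On f) (a b c : ℂ) (e : Fin 3) : ∑ d, m0 f β e d * frC f θ a b c d =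
    frC f θ (c * (β 0 * Real.sin θ - β 1 * Real.cos θ) - b * (β 0 * Real.cos θ + β 1 * Real.sin θ))
      (a * (β 0 * Real.cos θ + β 1 * Real.sin θ)) (-(a * (β 0 * Real.sin θ - β 1 * Real.cos θ))) e := by
  obtain ⟨h0, h1, h2⟩ := dot_f_frC (θ := θ) h a b c
  have hc := cs θ
  have e1 : ∑ d, m0 f β e d * frC f θ a b c d =
      β 0 * (f 1 e * dot (f 0) (frC f θ a b c) - f 0 e * dot (f 1) (frC f θ a b c)) +
      β 1 * (f 2 e * dot (f 0) (frC f θ a b c) - f 0 e * dot (f 2) (frC f θ a b c)) := by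
    simp only [m0, dot, Fin.sum_univ_three]; ring
  rw [e1, h0, h1, h2, frC]
  linear_combination (-(a * β 0 * f 1 e) - a * β 1 * f 2 e) * hc

/-! ### holomorphy -/

theorem diff_cm (i k : Fin 3) : Differentiable ℂ fun β => cm β i k := by
  fin_cases i <;> fin_cases k <;> simp [cm] <;> fun_prop

theorem diff_rf (f : Fin 3 → Fin 3 → ℂ) (i c : Fin 3) : Differentiable ℂ fun β => rf β f i c :=
  Differentiable.fun_sum fun k _ => (diff_cm i k).mul_const _

theorem diff_TT' (f : Fin 3 → Fin 3 → ℂ) (c d : Fin 3) : Differentiable ℂ fun β => TT f β c d :=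
  Differentiable.fun_sum fun i _ => ((diff_rf f i c).sub_const _).mul_const _

theorem diff_TT (f : Fin 3 → Fin 3 → ℂ) : Differentiable ℂ (TT f) :=
  differentiable_pi.2 fun c => differentiable_pi.2 fun d => diff_TT' f c d

section curve

variable {b : ℂ → Fin 2 → ℂ} {b' : Fin 2 → ℂ} {t : ℂ}

theorem hasDerivAt_cm (hb : HasDerivAt b b' t) (i k : Fin 3) : HasDerivAt (fun u => cm (b u) i k)
    (∑ l, sk (b' 0 * cos (b t 1)) (b' 1) (b' 0 * sin (b t 1)) i l * cm (b t) l k) t := by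
  have h0 := hasDerivAt_pi.1 hb 0
  have h1 := hasDerivAt_pi.1 hb 1
  have c0 := h0.ccos
  have s0 := h0.csin
  have c1 := h1.ccos
  have s1 := h1.csin
  have e1 := cos_sq_add_sin_sq (b t 1)
  fin_cases i <;> fin_cases k <;> simp only [cm, sk, Fin.sum_univ_three] <;> simp
  · exact (c0.mul c1).congr_deriv (by ring)
  · exact (s0.mul c1).congr_deriv (by ring)
  · exact s1.congr_deriv (by ring)
  · exact s0.neg.congr_deriv (by linear_combination (b' 0 * cos (b t 0)) * e1)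
  · exact c0.congr_deriv (by linear_combination (b' 0 * sin (b t 0)) * e1)
  · exact (hasDerivAt_const t (0 : ℂ)).congr_deriv (by ring)
  · exact (c0.mul s1).neg.congr_deriv (by ring)
  · exact (s0.mul s1).neg.congr_deriv (by ring)
  · exact c1.congr_deriv (by ring)

theorem hasDerivAt_rf (hb : HasDerivAt b b' t) (f : Fin 3 → Fin 3 → ℂ) (i c : Fin 3) :
    HasDerivAt (fun u => rf (b u) f i c)
      (∑ l, sk (b' 0 * cos (b t 1)) (b' 1) (b' 0 * sin (b t 1)) i l * rf (b t) f l c) t := by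
  refine (HasDerivAt.fun_sum fun k (_ : k ∈ Finset.univ) =>
    (hasDerivAt_cm hb i k).mul_const (f k c)).congr_deriv ?_
  simp only [rf, Fin.sum_univ_three]; ring

/-- the variation of a point of the rotated polar frame, `a₁ = β₀' cos β₁`, `a₂ = β₁'`,
`a₃ = β₀' sin β₁` -/
theorem hasDerivAt_frC (hb : HasDerivAt b b' t) (f : Fin 3 → Fin 3 → ℂ) (θ : ℝ) (x y z : ℂ)
    (e : Fin 3) {a₁ a₂ a₃ : ℂ} (h1 : a₁ = b' 0 * cos (b t 1)) (h2 : a₂ = b' 1)
    (h3 : a₃ = b' 0 * sin (b t 1)) : HasDerivAt (fun u => frC (rf (b u) f) θ x y z e)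
      (frC (rf (b t) f) θ
        (z * (a₁ * Real.sin θ - a₂ * Real.cos θ) - y * (a₁ * Real.cos θ + a₂ * Real.sin θ))
        (x * (a₁ * Real.cos θ + a₂ * Real.sin θ) - z * a₃)
        (y * a₃ - x * (a₁ * Real.sin θ - a₂ * Real.cos θ)) e) t := by
  have hc := cs θ
  refine ((((hasDerivAt_rf hb f 0 e).const_mul x).add
    ((hasDerivAt_rf hb f 1 e).const_mul (y * Real.cos θ - z * Real.sin θ))).add
    ((hasDerivAt_rf hb f 2 e).const_mul (y * Real.sin θ + z * Real.cos θ))).congr_deriv ?_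
  rw [← h1, ← h2, ← h3]
  simp only [frC, sk, Fin.sum_univ_three]
  simp
  push_cast at hc
  linear_combination (-(x * a₁ * rf (b t) f 1 e) - x * a₂ * rf (b t) f 2 e) * hc

theorem hasDerivAt_TT (hb : HasDerivAt b b' t) (f : Fin 3 → Fin 3 → ℂ) (c d : Fin 3) :
    HasDerivAt (fun u => TT f (b u) c d) (∑ i, (∑ l,
      sk (b' 0 * cos (b t 1)) (b' 1) (b' 0 * sin (b t 1)) i l * rf (b t) f l c) * f i d) t :=
  HasDerivAt.fun_sum fun i _ => ((hasDerivAt_rf hb f i c).sub_const _).mul_const _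

end curve

/-- `m0` as a continuous linear map -/
def m0L (f : Fin 3 → Fin 3 → ℂ) : (Fin 2 → ℂ) →L[ℂ] (Fin 3 → Fin 3 → ℂ) :=
  LinearMap.toContinuousLinearMap
    { toFun := m0 f
      map_add' := fun a b => by funext c d; simp only [m0, Pi.add_apply]; ring
      map_smul' := fun s a => by
        funext c d; simp only [m0, Pi.smul_apply, smul_eq_mul, RingHom.id_apply]; ring }

@[simp] theorem m0L_apply (f : Fin 3 → Fin 3 → ℂ) (β : Fin 2 → ℂ) : m0L f β = m0 f β := rfl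

theorem hasDerivAt_TT0 (f : Fin 3 → Fin 3 → ℂ) (β : Fin 2 → ℂ) (c d : Fin 3) :
    HasDerivAt (fun u : ℂ => TT f (u • β) c d) (m0 f β c d) 0 := by
  have h : HasDerivAt (fun u : ℂ => u • β) β 0 := by simpa using (hasDerivAt_id (0 : ℂ)).smul_const β
  refine (hasDerivAt_TT h f c d).congr_deriv ?_
  simp [m0, sk, Fin.sum_univ_three]
  ring

theorem fderiv_TT (f : Fin 3 → Fin 3 → ℂ) : fderiv ℂ (TT f) 0 = m0L f := by
  ext1 β
  have h : HasDerivAt (fun u : ℂ => u • β) β 0 := by simpa using (hasDerivAt_id (0 : ℂ)).smul_const β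
  have h1 := (diff_TT f ((0 : ℂ) • β)).hasFDerivAt.comp_hasDerivAt (0 : ℂ) h
  rw [zero_smul] at h1
  exact h1.unique (hasDerivAt_pi.2 fun c => hasDerivAt_pi.2 fun d => hasDerivAt_TT0 f β c d)

theorem hasFDerivAt_TT (f : Fin 3 → Fin 3 → ℂ) : HasFDerivAt (TT f) (m0L f) 0 :=
  fderiv_TT f ▸ (diff_TT f 0).hasFDerivAt

/-! ### reality -/

theorem cm_conj (β : Fin 2 → ℂ) (i k : Fin 3) : cm (star β) i k = conj (cm β i k) := by
  fin_cases i <;> fin_cases k <;> simp [cm, cos_conj, sin_conj]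

theorem rf_conj (hf : ∀ i c, conj (f i c) = f i c) (β : Fin 2 → ℂ) (i c : Fin 3) :
    rf (star β) f i c = conj (rf β f i c) := by
  simp [rf, cm_conj, hf]

theorem TT_conj (hf : ∀ i c, conj (f i c) = f i c) (β : Fin 2 → ℂ) (c d : Fin 3) :
    TT f (star β) c d = conj (TT f β c d) := by
  simp [TT, rf_conj hf, hf]

theorem m0_conj (hf : ∀ i c, conj (f i c) = f i c) (β : Fin 2 → ℂ) (c d : Fin 3) :
    m0 f (star β) c d = conj (m0 f β c d) := by
  simp [m0, hf]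

/-- Euclidean space -/
abbrev E3 : Type := N222.E (Fin 3)

theorem fQ_conj (Q : E3 ≃ₗᵢ[ℝ] E3) (i c : Fin 3) : conj (fQ Q i c) = fQ Q i c := conj_ofReal _

/-- the isometry with rows `A i` -/
def mkR (A : Fin 3 → Fin 3 → ℝ) (h : ∀ i j, dot (A i) (A j) = if i = j then 1 else 0) :
    E3 ≃ₗᵢ[ℝ] E3 :=
  LinearIsometry.toLinearIsometryEquiv
    { toFun := fun y => WithLp.toLp 2 fun k => ∑ i, y i * A i k
      map_add' := fun y z => by ext k; simp [add_mul, Finset.sum_add_distrib]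
      map_smul' := fun s y => by ext k; simp [Finset.mul_sum, mul_assoc]
      norm_map' := fun y => by
        have h00 := h 0 0; have h01 := h 0 1; have h02 := h 0 2
        have h11 := h 1 1; have h12 := h 1 2; have h22 := h 2 2
        simp [dot, Fin.sum_univ_three] at h00 h01 h02 h11 h12 h22
        simp only [EuclideanSpace.norm_eq, Real.norm_eq_abs, sq_abs, Fin.sum_univ_three,
          LinearMap.coe_mk, AddHom.coe_mk]
        congr 1
        linear_combination (y 0 ^ 2) * h00 + (2 * y 0 * y 1) * h01 + (2 * y 0 * y 2) * h02 +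
          (y 1 ^ 2) * h11 + (2 * y 1 * y 2) * h12 + (y 2 ^ 2) * h22 } rfl

theorem mkR_apply (A : Fin 3 → Fin 3 → ℝ) (h : ∀ i j, dot (A i) (A j) = if i = j then 1 else 0)
    (y : E3) (k : Fin 3) : mkR A h y k = ∑ i, y i * A i k := rfl

/-- rotation in the plane `(0, 1)` -/
def P1 (φ : ℝ) : E3 ≃ₗᵢ[ℝ] E3 :=
  mkR ![![Real.cos φ, Real.sin φ, 0], ![-Real.sin φ, Real.cos φ, 0], ![0, 0, 1]] fun i j => by
    have := Real.cos_sq_add_sin_sq φ
    fin_cases i <;> fin_cases j <;> simp [dot, Fin.sum_univ_three] <;> grind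

/-- rotation in the plane `(0, 2)` -/
def P2 (φ : ℝ) : E3 ≃ₗᵢ[ℝ] E3 :=
  mkR ![![Real.cos φ, 0, Real.sin φ], ![0, 1, 0], ![-Real.sin φ, 0, Real.cos φ]] fun i j => by
    have := Real.cos_sq_add_sin_sq φ
    fin_cases i <;> fin_cases j <;> simp [dot, Fin.sum_univ_three] <;> grind

/-- the real rotation, in coordinates -/
def RR (β : Fin 2 → ℝ) : E3 ≃ₗᵢ[ℝ] E3 := (P2 (β 1)).trans (P1 (β 0))

theorem norm_le_of_sq {u y : E3} {φ : ℝ}
    (h : u 0 ^ 2 + u 1 ^ 2 + u 2 ^ 2 ≤ φ ^ 2 * (y 0 ^ 2 + y 1 ^ 2 + y 2 ^ 2)) : ‖u‖ ≤ |φ| * ‖y‖ := by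
  refine (sq_le_sq₀ (norm_nonneg _) (by positivity)).1 ?_
  rw [mul_pow, sq_abs, EuclideanSpace.real_norm_sq_eq, EuclideanSpace.real_norm_sq_eq]
  simpa [Fin.sum_univ_three] using h

theorem P1_sub (φ : ℝ) (y : E3) : ‖P1 φ y - y‖ ≤ |φ| * ‖y‖ := by
  refine norm_le_of_sq ?_
  have h1 := Real.cos_sq_add_sin_sq φ
  have h2 := Real.one_sub_sq_div_two_le_cos (x := φ)
  simp [P1, mkR_apply, Fin.sum_univ_three]
  have e : (y 0 * Real.cos φ + -(y 1 * Real.sin φ) - y 0) ^ 2 +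
      (y 0 * Real.sin φ + y 1 * Real.cos φ - y 1) ^ 2 =
      (2 - 2 * Real.cos φ) * (y 0 ^ 2 + y 1 ^ 2) := by
    linear_combination (y 0 ^ 2 + y 1 ^ 2) * h1
  rw [e]
  nlinarith [sq_nonneg (y 0), sq_nonneg (y 1), mul_nonneg (sq_nonneg φ) (sq_nonneg (y 2))]

theorem P2_sub (φ : ℝ) (y : E3) : ‖P2 φ y - y‖ ≤ |φ| * ‖y‖ := by
  refine norm_le_of_sq ?_
  have h1 := Real.cos_sq_add_sin_sq φ
  have h2 := Real.one_sub_sq_div_two_le_cos (x := φ)
  simp [P2, mkR_apply, Fin.sum_univ_three]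
  have e : (y 0 * Real.cos φ + -(y 2 * Real.sin φ) - y 0) ^ 2 +
      (y 0 * Real.sin φ + y 2 * Real.cos φ - y 2) ^ 2 =
      (2 - 2 * Real.cos φ) * (y 0 ^ 2 + y 2 ^ 2) := by
    linear_combination (y 0 ^ 2 + y 2 ^ 2) * h1
  rw [e]
  nlinarith [sq_nonneg (y 0), sq_nonneg (y 2), mul_nonneg (sq_nonneg φ) (sq_nonneg (y 1))]

theorem RR_sub (β : Fin 2 → ℝ) (y : E3) : ‖RR β y - y‖ ≤ 2 * ‖β‖ * ‖y‖ := by
  have h1 := P1_sub (β 0) (P2 (β 1) y)
  have h2 := P2_sub (β 1) y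
  rw [LinearIsometryEquiv.norm_map] at h1
  have h3 : |β 0| ≤ ‖β‖ := norm_le_pi_norm β 0
  have h4 : |β 1| ≤ ‖β‖ := norm_le_pi_norm β 1
  have h5 := norm_sub_le_norm_sub_add_norm_sub (P1 (β 0) (P2 (β 1) y)) (P2 (β 1) y) y
  have h6 := norm_nonneg y
  change ‖P1 (β 0) (P2 (β 1) y) - y‖ ≤ _
  nlinarith

theorem RR_apply (β : Fin 2 → ℝ) (y : E3) (k : Fin 3) :
    ((RR β y k : ℝ) : ℂ) = ∑ i, (y i : ℂ) * cm (fun l => (β l : ℂ)) i k := by
  change ((P1 (β 0) (P2 (β 1) y) k : ℝ) : ℂ) = _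
  fin_cases k <;> simp [P1, P2, mkR_apply, cm, Fin.sum_univ_three] <;> ring

theorem cx_Q (Q : E3 ≃ₗᵢ[ℝ] E3) (y : E3) (c : Fin 3) : cx (Q y) c = ∑ k, (y k : ℂ) * fQ Q k c := by
  have h : y = ∑ k, y k • N250.ee k := by
    ext k; simp [N250.ee, Pi.single_apply]
  conv_lhs => rw [h]
  simp [cx, fQ]

/-- the frame of the rotated end -/
theorem fQ_RR (β : Fin 2 → ℝ) (Q : E3 ≃ₗᵢ[ℝ] E3) :
    fQ ((RR β).trans Q) = rf (fun l => (β l : ℂ)) (fQ Q) := by
  funext i c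
  change cx (Q (RR β (N250.ee i))) c = _
  rw [cx_Q]
  fin_cases i <;> simp [RR_apply, rf, N250.ee, Fin.sum_univ_three]

/-- the gauge on real points -/
theorem MM_real (β : Fin 2 → ℝ) (Q : E3 ≃ₗᵢ[ℝ] E3) (y : E3) :
    MM (fQ Q) (fun l => (β l : ℂ)) (cx y) = cx (Q (RR β (Q.symm y))) := by
  funext c
  rw [MM_eq (on_fQ Q), ← fQ_RR]
  change _ = cx (((RR β).trans Q) (Q.symm y)) c
  rw [cx_Q]
  refine Finset.sum_congr rfl fun i _ => ?_
  congr 1
  rw [fQ, dot_cx, ← Q.symm.inner_map_map, Q.symm_apply_apply]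
  simp [N250.ee, EuclideanSpace.inner_single_left]

end Crest.Agent.N250.Ro

end
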